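import Vale.Agent.P033.Main

namespace Vale.Agent.Results.P033.Circulant

theorem result (n : ℕ) (hn : 1 ≤ n) :
    (∃ H : Matrix (Fin n) (Fin n) ℝ,
      (∀ i j, H i j = 1 ∨ H i j = -1) ∧
      H * H.transpose = (n : ℝ) • (1 : Matrix (Fin n) (Fin n) ℝ) ∧
      ∃ h : ℕ → ℝ, (∀ k < n, h k = 1 ∨ h k = -1) ∧
        ∀ i j : Fin n, H i j = h ((((j.val : ℤ) - (i.val : ℤ)) % (n : ℤ)).toNat)) ↔
    (n = 1 ∨ n = 4) := by
  constructor
  · rintro ⟨H, -, hHH, h, hs, hH⟩
    obtain ⟨m, rfl⟩ : ∃ m, n = m + 1 := ⟨n - 1, by omega⟩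
    obtain ⟨c, hc1, hc2⟩ := Vale.Agent.P033.of_matrix m H (fun k => h k.val)
      (fun k => hs k.val k.isLt) (fun i j => by
        rw [hH i j]
        congr 1
        have h1 := Fin.coe_int_sub_eq_mod j i
        rw [← h1]
        simp) hHH
    exact Vale.Agent.P033.order_of_perfect c hc1 _ (by omega) hc2
  · rintro (rfl | rfl)
    · refine ⟨1, ?_, by simp, fun _ => 1, by simp, ?_⟩
      · intro i j
        left
        rw [Subsingleton.elim i j]
        simp
      · intro i j
        rw [Subsingleton.elim i j]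
        simp
    · refine ⟨!![1, 1, 1, -1; -1, 1, 1, 1; 1, -1, 1, 1; 1, 1, -1, 1], ?_, ?_,
        fun k => if k = 3 then -1 else 1, ?_, ?_⟩
      · intro i j
        fin_cases i <;> fin_cases j <;> simp
      · ext i j
        fin_cases i <;> fin_cases j <;>
          simp [Matrix.mul_apply, Fin.sum_univ_four] <;> norm_num
      · intro k _
        by_cases hk : k = 3 <;> simp [hk]
      · intro i j
        fin_cases i <;> fin_cases j <;> simp

end Vale.Agent.Results.P033.Circulant
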